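import Vale.Agent.P236JG.Dat
import Vale.Agent.P236JY.Dif
import Vale.Agent.P236JX.Emit

/-!
# P236JG / Base : the lifted complexes of the sphere, of `C α` and of `Y` are correct
-/

noncomputable section

namespace Vale.Agent.P236JG

open Vale.Agent.P251.F Vale.Agent.P251.I Vale.Agent.P236SY Vale.Agent.P236R
open Vale.Agent.P236EL Vale.Agent.P236KE Vale.Agent.P236K3 Vale.Agent.P236KE.S90
open Vale.Agent.P236F Vale.Agent.P236J3 Vale.Agent.P236JY Vale.Agent.P236JX Vale.Agent.P236JF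
open Vale.Agent.P236JT

variable [Fact (Nat.Prime 3)]

/-- the curvature of the lifted resolution lies in the ideal of `3` and `v_1 ^ 3` -/
def HK : Prop := rJ.K1 (Jr K 3) QJ TJ

theorem nrS (n : ℕ) : Rs.Near rS jS (I ^ 3) n :=
  ⟨inv_II.pow 3, rJ_deg, rJ_th, rJ_e, fun q _ => rJ_dif q⟩

theorem nrA (n : ℕ) : Rs.Near rA jA (I ^ 3) n := (nrS n).tens _

theorem nrY (n : ℕ) : Rs.Near rY jY (I ^ 3) n := (nrS n).tens _

theorem degS : jS.deg = rS.deg := (nrS 0).deg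
theorem degA : jA.deg = rA.deg := (nrA 0).deg
theorem degY : jY.deg = rY.deg := (nrY 0).deg

variable {t : Cob Laz 1}

theorem okS (h : HK) : jS.OkJ (RingHom.id K) (Jr K 3) QJ TJ :=
  P236JY.okJ h (by decide) (by decide)

theorem wdS (h : HK) : WdJ jS 0 (Jr K 3) QJ TJ :=
  ⟨(nrS 0).ic (P236EL.wdS ok3).ic, okS h, fun _ => le_rfl, mc_zero⟩

theorem wdA (h : HK) (ht : IsT1 3 t) : WdJ jA (θA t) (Jr K 3) QJ TJ :=
  ⟨(nrA 0).ic (P236EL.wdA ok3 ht).ic, (okS h).tens fun _ => sub_le_self _ (Int.natCast_nonneg _),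
    fun _ => Int.natCast_nonneg _, mc_A ht⟩

theorem wdY (h : HK) (ht : IsT1 3 t) : WdJ jY (θY t) (Jr K 3) QJ TJ :=
  ⟨(nrY 0).ic (P236EL.wdY ok3 ht).ic, (okS h).tens fun _ => sub_le_self _ (Int.natCast_nonneg _),
    fun _ => Int.natCast_nonneg _, mc_Y ht⟩

/-- **the sphere** -/
theorem wxS (h : HK) : WxJ jS 0 eJ iS 90 sph.s3 sph.s4 := ⟨wdS h, cxJ QJ, le_rfl⟩

/-- **the three complexes** -/
theorem w3 (h : HK) (ht : IsT1 3 t) : W3 rJ rfl rfl t eJ 90 sph.s3 sph.s4 :=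
  W3.of ht (wxS h) (wdA h ht) (wdY h ht)

theorem wxA (h : HK) (ht : IsT1 3 t) : WxJ jA (θA t) (eA eJ) (iT 90 2) 90 sph.s3 sph.s4 :=
  (w3 h ht).A

theorem wxY (h : HK) (ht : IsT1 3 t) : WxJ jY (θY t) (eY eJ) (iT 90 3) 90 sph.s3 sph.s4 :=
  (w3 h ht).Y

/-- the sphere, with the first resolution -/
theorem wnS (h : HK) : WN jS rS 0 eJ iS 90 sph.s3 sph.s4 := ⟨wxS h, (nrS _).symm⟩

theorem wnA (h : HK) (ht : IsT1 3 t) : WN jA rA (θA t) (eA eJ) (iT 90 2) 90 sph.s3 sph.s4 :=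
  ⟨wxA h ht, (nrA _).symm⟩

theorem wnY (h : HK) (ht : IsT1 3 t) : WN jY rY (θY t) (eY eJ) (iT 90 3) 90 sph.s3 sph.s4 :=
  ⟨wxY h ht, (nrY _).symm⟩

end Vale.Agent.P236JG

end
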