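import Vale.Agent.P236JY.Kd
import Vale.Agent.P236JT.Ce

/-!
# P236JG / Dat : the data of the lifted complex of the sphere with its bounds
-/

noncomputable section

namespace Vale.Agent.P236JG

open MvPolynomial Vale.Agent.P236EL Vale.Agent.P236KE Vale.Agent.P236K3 Vale.Agent.P236KE.S90
open Vale.Agent.P236F Vale.Agent.P236J3 Vale.Agent.P236JY Vale.Agent.P236JX Vale.Agent.P236JT

/-- the bound for the degree -/
def QJ : Nat := nat_lit 18
/-- the bound for the weight -/
def TJ : Nat := nat_lit 90
/-- the sphere with its bounds -/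
def eJ : JD := ⟨dJ, QJ, TJ⟩

theorem QJ_eq : QJ = 18 := rfl
theorem TJ_eq : TJ = 90 := rfl
theorem eJ_L : eJ.D.L = (dS 90).L := rfl

theorem n_eq (T q : ℕ) : ((dS T).L q).n = sph.n q := by
  change (sL sph T q).n = _
  rw [sL_eq]
  rfl

/-- the numbers of the generators on cells do not depend on the layout -/
theorem iT_eq (T T' m : ℕ) : iT T m = iT T' m := funext fun q => funext fun a => by
  change _ + ((dS T).L q).n * _ = _ + ((dS T').L q).n * _
  rw [n_eq, n_eq]

theorem iJ_eq (T m : ℕ) : iJ eJ m = iT T m := iT_eq 90 T m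

variable [Fact (Nat.Prime 3)]

/-- the lifted resolution of the sphere -/
abbrev jS : Rs 3 K sph.G := rJ
/-- the lifted resolution of `C α` -/
abbrev jA : Rs 3 K (TG sph.G (Fin 2)) := rJ.cA rfl rfl
/-- the lifted resolution of `Y` -/
abbrev jY : Rs 3 K (TG sph.G (Fin 3)) := rJ.cY rfl rfl

end Vale.Agent.P236JG

end
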